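import Vale.Agent.Lib.P262.helper8.Defs

set_option linter.unusedSectionVars false

namespace Vale.Agent.Lib.P262.helper8

open scoped RealInnerProductSpace

variable {H : Type*} [NormedAddCommGroup H] [InnerProductSpace ℝ H] [FiniteDimensional ℝ H]
variable {ι : Type*} [LinearOrder ι]

/-- Adding a new first vector: the residual sum grows by at most the drop of the potential
`∑ k, dist2 x J (z k)`. -/
theorem potential_step {κ : Type*} [Fintype κ] (x : ι → H) (z : κ → H) (b : ι → κ → ℝ)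
    (hb : ∀ p, ∑ k, (b p k) ^ 2 ≤ 1)
    (horth : ∀ p j, p ≤ j → ⟪x p - ∑ k, b p k • z k, x j⟫ = 0)
    (p : ι) (J : Finset ι) (hpJ : ∀ q ∈ J, p < q) :
    rho x (insert p J) + ∑ k, dist2 x (insert p J) (z k) ≤ rho x J + ∑ k, dist2 x J (z k) := by
  classical
  have hpnot : p ∉ J := fun h => lt_irrefl p (hpJ p h)
  have hfilt : (insert p J).filter (fun j => p < j) = J := by
    ext j
    simp only [Finset.mem_filter, Finset.mem_insert]
    constructor
    · rintro ⟨h | h, hlt⟩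
      · exact absurd (h ▸ hlt) (lt_irrefl p)
      · exact h
    · intro h; exact ⟨Or.inr h, hpJ j h⟩
  have hrho : rho x (insert p J) = res x p (insert p J) + rho x J := by
    unfold rho
    rw [Finset.sum_insert hpnot]
    congr 1
    apply Finset.sum_congr rfl
    intro q hq
    unfold res
    rw [Finset.filter_insert, if_neg (not_lt.mpr (hpJ q hq).le)]
  obtain ⟨P, hP⟩ : ∃ P : H, P = (spanOn x J).starProjection (x p) := ⟨_, rfl⟩
  obtain ⟨y, hy⟩ : ∃ y : H, y = x p - P := ⟨_, rfl⟩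
  have hres : res x p (insert p J) = ‖y‖ ^ 2 := by
    rw [hy, hP]; unfold res; rw [hfilt]; rfl
  have hPmem : P ∈ spanOn x J := by rw [hP]; exact Submodule.starProjection_apply_mem _ _
  have hyorth : ∀ k ∈ spanOn x J, ⟪y, k⟫ = 0 := by
    intro k hk; rw [hy, hP]; exact inner_resid_eq_zero x J (x p) hk
  have hymem : y ∈ spanOn x (insert p J) := by
    rw [hy]
    exact Submodule.sub_mem _ (mem_spanOn x (Finset.mem_insert_self p J))
      (spanOn_mono x (Finset.subset_insert p J) hPmem)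
  have hxy : ⟪x p, y⟫ = ‖y‖ ^ 2 := by
    have h1 : x p = y + P := by rw [hy]; abel
    rw [h1, inner_add_left, real_inner_self_eq_norm_sq, real_inner_comm, hyorth P hPmem, add_zero]
  have hw : ∀ k ∈ spanOn x (insert p J), ⟪x p - ∑ k, b p k • z k, k⟫ = 0 := by
    intro k hk
    unfold spanOn at hk
    induction hk using Submodule.span_induction with
    | mem v hv =>
      obtain ⟨j, hj, rfl⟩ := hv
      have hj' : j ∈ insert p J := Finset.mem_coe.mp hj
      rcases Finset.mem_insert.mp hj' with h | h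
      · exact horth p j h.ge
      · exact horth p j (hpJ j h).le
    | zero => exact inner_zero_right _
    | add a b _ _ ha hb => rw [inner_add_right, ha, hb, add_zero]
    | smul r a _ ha => rw [inner_smul_right, ha, mul_zero]
  have hsum : ‖y‖ ^ 2 = ∑ k, b p k * ⟪z k, y⟫ := by
    have h1 := hw y hymem
    rw [inner_sub_left, hxy, sum_inner] at h1
    simp only [real_inner_smul_left] at h1
    linarith
  have hCS : (‖y‖ ^ 2) ^ 2 ≤ ∑ k, ⟪z k, y⟫ ^ 2 := by
    rw [hsum]
    have h1 := Finset.sum_mul_sq_le_sq_mul_sq Finset.univ (fun k => b p k) (fun k => ⟪z k, y⟫)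
    have h2 : 0 ≤ ∑ k, ⟪z k, y⟫ ^ 2 := Finset.sum_nonneg (fun k _ => sq_nonneg _)
    have h3 := mul_le_mul_of_nonneg_right (hb p) h2
    linarith
  have hstep : ∀ (k : κ) (t : ℝ), dist2 x (insert p J) (z k) ≤
      dist2 x J (z k) - 2 * t * ⟪z k, y⟫ + t ^ 2 * ‖y‖ ^ 2 := by
    intro k t
    obtain ⟨m, hm⟩ : ∃ m : H, m = (spanOn x J).starProjection (z k) := ⟨_, rfl⟩
    have hmmem : m ∈ spanOn x J := by rw [hm]; exact Submodule.starProjection_apply_mem _ _
    have hmem : m + t • y ∈ spanOn x (insert p J) :=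
      Submodule.add_mem _ (spanOn_mono x (Finset.subset_insert p J) hmmem)
        (Submodule.smul_mem _ t hymem)
    have h1 := dist2_le x (insert p J) (z k) hmem
    have h2 : ‖z k - (m + t • y)‖ ^ 2 = ‖z k - m‖ ^ 2 - 2 * t * ⟪z k, y⟫ + t ^ 2 * ‖y‖ ^ 2 := by
      have h3 : z k - (m + t • y) = (z k - m) - t • y := by abel
      rw [h3, norm_sub_sq_real, inner_smul_right, norm_smul, mul_pow, Real.norm_eq_abs, sq_abs,
        inner_sub_left, real_inner_comm y m, hyorth m hmmem]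
      ring
    have h4 : dist2 x J (z k) = ‖z k - m‖ ^ 2 := by rw [hm]; rfl
    rw [h2, ← h4] at h1
    exact h1
  rw [hrho, hres]
  by_cases hy0 : ‖y‖ ^ 2 = 0
  · have h1 : ∑ k, dist2 x (insert p J) (z k) ≤ ∑ k, dist2 x J (z k) := by
      apply Finset.sum_le_sum
      intro k _
      have := hstep k 0
      simpa using this
    rw [hy0]; linarith
  · have hNpos : 0 < ‖y‖ ^ 2 := lt_of_le_of_ne (sq_nonneg _) (Ne.symm hy0)
    have h1 : ∑ k, dist2 x (insert p J) (z k) ≤
        ∑ k, (dist2 x J (z k) - ⟪z k, y⟫ ^ 2 / ‖y‖ ^ 2) := by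
      apply Finset.sum_le_sum
      intro k _
      have h2 := hstep k (⟪z k, y⟫ / ‖y‖ ^ 2)
      have h3 : dist2 x J (z k) - 2 * (⟪z k, y⟫ / ‖y‖ ^ 2) * ⟪z k, y⟫ +
          (⟪z k, y⟫ / ‖y‖ ^ 2) ^ 2 * ‖y‖ ^ 2 = dist2 x J (z k) - ⟪z k, y⟫ ^ 2 / ‖y‖ ^ 2 := by
        field_simp
        ring
      rw [h3] at h2
      exact h2
    rw [Finset.sum_sub_distrib, ← Finset.sum_div] at h1
    have h5 : ‖y‖ ^ 2 ≤ (∑ k, ⟪z k, y⟫ ^ 2) / ‖y‖ ^ 2 := by
      rw [le_div_iff₀ hNpos]
      calc ‖y‖ ^ 2 * ‖y‖ ^ 2 = (‖y‖ ^ 2) ^ 2 := by ring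
        _ ≤ ∑ k, ⟪z k, y⟫ ^ 2 := hCS
    linarith

/-- The residual sum of any subfamily is bounded by the total squared norm of the `z k`. -/
theorem rho_le_sum_sq {κ : Type*} [Fintype κ] (x : ι → H) (z : κ → H) (b : ι → κ → ℝ)
    (hb : ∀ p, ∑ k, (b p k) ^ 2 ≤ 1)
    (horth : ∀ p j, p ≤ j → ⟪x p - ∑ k, b p k • z k, x j⟫ = 0) (J : Finset ι) :
    rho x J ≤ ∑ k, ‖z k‖ ^ 2 := by
  classical
  have key : rho x J + ∑ k, dist2 x J (z k) ≤ ∑ k, ‖z k‖ ^ 2 := by
    induction J using Finset.induction_on_min with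
    | empty =>
      have h1 : rho x (∅ : Finset ι) = 0 := by simp [rho]
      rw [h1, zero_add]
      apply Finset.sum_le_sum
      intro k _
      have h2 := dist2_le x ∅ (z k) (k := 0) (Submodule.zero_mem _)
      simpa using h2
    | insert p J hpJ ih => exact (potential_step x z b hb horth p J hpJ).trans ih
  have h2 : 0 ≤ ∑ k, dist2 x J (z k) := Finset.sum_nonneg (fun k _ => dist2_nonneg _ _ _)
  linarith

end Vale.Agent.Lib.P262.helper8
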