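import Vale.Agent.Lib.P262.helper8.Walk
import Vale.Agent.Lib.P262.helper8.Potential

set_option linter.unusedSectionVars false

namespace Vale.Agent.Lib.P262.helper8

open scoped RealInnerProductSpace

variable {H : Type*} [NormedAddCommGroup H] [InnerProductSpace ℝ H] [FiniteDimensional ℝ H]
variable {ι : Type*} [LinearOrder ι]

/-- Abstract sign-selection theorem: if every `x p` agrees, against all later `x j`, with a
combination of the `z k` whose coefficient vector has Euclidean norm at most one, then there are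
signs with `‖∑ ε i • x i‖ ^ 2 ≤ ∑ ‖z k‖ ^ 2`. -/
theorem exists_signs_abstract [Fintype ι] {κ : Type*} [Fintype κ] (x : ι → H) (z : κ → H)
    (b : ι → κ → ℝ) (hb : ∀ p, ∑ k, (b p k) ^ 2 ≤ 1)
    (horth : ∀ p j, p ≤ j → ⟪x p - ∑ k, b p k • z k, x j⟫ = 0) :
    ∃ ε : ι → ℝ, (∀ i, ε i = 1 ∨ ε i = -1) ∧ ‖∑ i, ε i • x i‖ ^ 2 ≤ ∑ k, ‖z k‖ ^ 2 := by
  obtain ⟨ε, J, hε, h⟩ := exists_signs_le_rho x
  exact ⟨ε, hε, h.trans (rho_le_sum_sq x z b hb horth J)⟩

end Vale.Agent.Lib.P262.helper8
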