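import Vale.Agent.Lib.P262.helper8.Abstract

set_option linter.unusedSectionVars false

namespace Vale.Agent.Lib.P262.helper8

open scoped RealInnerProductSpace

/-- Coordinates of a finite sum in a Euclidean space. -/
theorem euclid_sum_apply {n α : Type*} [Fintype n] (s : Finset α)
    (f : α → EuclideanSpace ℝ n) (j : n) : (∑ a ∈ s, f a) j = ∑ a ∈ s, f a j := by
  rw [WithLp.ofLp_sum, Finset.sum_apply]

/-- Averaged form of the signed prefix problem: for every weighting of the prefix lengths there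
are signs for which the weighted mean of the squared norms of the signed prefix sums is at most
the dimension. -/
theorem averaged_prefix (d N : ℕ) (v : Fin N → EuclideanSpace ℝ (Fin d)) (hv : ∀ i, ‖v i‖ ≤ 1)
    (ν : Fin N → ℝ) (hν : ∀ t, 0 ≤ ν t) :
    ∃ ε : Fin N → ℝ, (∀ i, ε i = 1 ∨ ε i = -1) ∧
      ∑ t, ν t * ‖∑ i ∈ Finset.univ.filter (fun i => i ≤ t), ε i • v i‖ ^ 2 ≤ d * ∑ t, ν t := by
  classical
  obtain ⟨x, hx⟩ : ∃ x : Fin N → EuclideanSpace ℝ (Fin N × Fin d), x = fun i =>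
      WithLp.toLp 2 (fun tk : Fin N × Fin d =>
        if i ≤ tk.1 then Real.sqrt (ν tk.1) * v i tk.2 else 0) := ⟨_, rfl⟩
  obtain ⟨z, hz⟩ : ∃ z : Fin d → EuclideanSpace ℝ (Fin N × Fin d), z = fun k =>
      WithLp.toLp 2 (fun tk : Fin N × Fin d => if tk.2 = k then Real.sqrt (ν tk.1) else 0) :=
    ⟨_, rfl⟩
  have hxc : ∀ (i : Fin N) (t : Fin N) (k : Fin d),
      x i (t, k) = if i ≤ t then Real.sqrt (ν t) * v i k else 0 := by
    intro i t k; rw [hx]
  have hzc : ∀ (k : Fin d) (t : Fin N) (k' : Fin d),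
      z k (t, k') = if k' = k then Real.sqrt (ν t) else 0 := by
    intro k t k'; rw [hz]
  have hb : ∀ p : Fin N, ∑ k, (v p k) ^ 2 ≤ 1 := by
    intro p
    have h1 := EuclideanSpace.real_norm_sq_eq (v p)
    have h2 : ‖v p‖ ^ 2 ≤ 1 := pow_le_one₀ (norm_nonneg _) (hv p)
    rw [h1] at h2
    exact h2
  have horth : ∀ p j : Fin N, p ≤ j → ⟪x p - ∑ k, v p k • z k, x j⟫ = 0 := by
    intro p j hpj
    rw [PiLp.inner_apply]
    apply Finset.sum_eq_zero
    rintro ⟨t, k'⟩ _
    have h1 : (x p - ∑ k, v p k • z k) (t, k') =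
        (if p ≤ t then Real.sqrt (ν t) * v p k' else 0) - v p k' * Real.sqrt (ν t) := by
      rw [PiLp.sub_apply, euclid_sum_apply, hxc]
      congr 1
      simp only [PiLp.smul_apply, smul_eq_mul, hzc]
      simp
    change inner ℝ ((x p - ∑ k, v p k • z k) (t, k')) (x j (t, k')) = 0
    rw [h1, hxc]
    by_cases hjt : j ≤ t
    · rw [if_pos hjt, if_pos (hpj.trans hjt)]
      simp [mul_comm]
    · rw [if_neg hjt]; simp
  obtain ⟨ε, hε, hbound⟩ := exists_signs_abstract x z (fun p k => v p k) hb horth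
  refine ⟨ε, hε, ?_⟩
  have hzn : ∀ k : Fin d, ‖z k‖ ^ 2 = ∑ t, ν t := by
    intro k
    rw [EuclideanSpace.real_norm_sq_eq, Fintype.sum_prod_type]
    apply Finset.sum_congr rfl
    intro t _
    have h1 : ∀ k' : Fin d, (z k).ofLp (t, k') ^ 2 = if k' = k then ν t else 0 := by
      intro k'
      have h2 := hzc k t k'
      change (z k).ofLp (t, k') = _ at h2
      rw [h2]
      by_cases h : k' = k
      · rw [if_pos h, if_pos h, Real.sq_sqrt (hν t)]
      · rw [if_neg h, if_neg h]; norm_num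
    simp only [h1]
    simp
  have hR : ∑ k, ‖z k‖ ^ 2 = d * ∑ t, ν t := by
    simp only [hzn]
    simp
  have hL : ‖∑ i, ε i • x i‖ ^ 2 =
      ∑ t, ν t * ‖∑ i ∈ Finset.univ.filter (fun i => i ≤ t), ε i • v i‖ ^ 2 := by
    rw [EuclideanSpace.real_norm_sq_eq, Fintype.sum_prod_type]
    apply Finset.sum_congr rfl
    intro t _
    rw [EuclideanSpace.real_norm_sq_eq, Finset.mul_sum]
    apply Finset.sum_congr rfl
    intro k _
    have h1 : (∑ i, ε i • x i).ofLp (t, k) =
        Real.sqrt (ν t) * (∑ i ∈ Finset.univ.filter (fun i => i ≤ t), ε i • v i).ofLp k := by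
      rw [euclid_sum_apply, euclid_sum_apply, Finset.mul_sum, Finset.sum_filter]
      apply Finset.sum_congr rfl
      intro i _
      rw [PiLp.smul_apply, hxc]
      by_cases h : i ≤ t
      · rw [if_pos h, if_pos h, PiLp.smul_apply]; simp only [smul_eq_mul]; ring
      · rw [if_neg h, if_neg h]; simp
    rw [h1, mul_pow, Real.sq_sqrt (hν t)]
  rw [hL, hR] at hbound
  exact hbound

end Vale.Agent.Lib.P262.helper8
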