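import Vale.Agent.Lib.P262.helper8.Sharp

set_option linter.unusedSectionVars false

namespace Vale.Agent.Lib.P262.helper8

open scoped RealInnerProductSpace

/-- Uniform weights and the Markov inequality: one choice of signs for which, for every
`lam > 0`, at most `N / lam ^ 2` of the signed prefix sums have norm above `lam * √d`. -/
theorem counting_prefix (d N : ℕ) (v : Fin N → EuclideanSpace ℝ (Fin d)) (hv : ∀ i, ‖v i‖ ≤ 1) :
    ∃ ε : Fin N → ℝ, (∀ i, ε i = 1 ∨ ε i = -1) ∧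
      ∑ t, ‖∑ i ∈ Finset.univ.filter (fun i => i ≤ t), ε i • v i‖ ^ 2 ≤ d * N ∧
      ∀ lam : ℝ, 0 < lam →
        ((Finset.univ.filter (fun t : Fin N =>
          lam * Real.sqrt d < ‖∑ i ∈ Finset.univ.filter (fun i => i ≤ t), ε i • v i‖)).card : ℝ)
          * lam ^ 2 ≤ N := by
  classical
  obtain ⟨ε, hε, hb⟩ := averaged_prefix d N v hv (fun _ => 1) (fun _ => zero_le_one)
  have hb' : ∑ t, ‖∑ i ∈ Finset.univ.filter (fun i => i ≤ t), ε i • v i‖ ^ 2 ≤ d * N := by
    simpa using hb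
  refine ⟨ε, hε, hb', ?_⟩
  intro lam hlam
  set B := Finset.univ.filter (fun t : Fin N =>
    lam * Real.sqrt d < ‖∑ i ∈ Finset.univ.filter (fun i => i ≤ t), ε i • v i‖) with hB
  rcases Nat.eq_zero_or_pos d with hd | hd
  · subst hd
    have hempty : B = ∅ := by
      rw [hB]
      apply Finset.filter_eq_empty_iff.mpr
      intro t _
      have h0 : (∑ i ∈ Finset.univ.filter (fun i => i ≤ t), ε i • v i) = 0 :=
        Subsingleton.elim _ _
      rw [h0]
      simp
    rw [hempty]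
    simp
  · have hdpos : (0 : ℝ) < d := by exact_mod_cast hd
    have h1 : (B.card : ℝ) * (lam ^ 2 * d) ≤
        ∑ t ∈ B, ‖∑ i ∈ Finset.univ.filter (fun i => i ≤ t), ε i • v i‖ ^ 2 := by
      rw [← nsmul_eq_mul]
      apply Finset.card_nsmul_le_sum
      intro t ht
      rw [hB, Finset.mem_filter] at ht
      have h2 : 0 ≤ lam * Real.sqrt d := mul_nonneg hlam.le (Real.sqrt_nonneg _)
      have h3 : (lam * Real.sqrt d) ^ 2 ≤
          ‖∑ i ∈ Finset.univ.filter (fun i => i ≤ t), ε i • v i‖ ^ 2 :=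
        pow_le_pow_left₀ h2 ht.2.le 2
      rw [mul_pow, Real.sq_sqrt hdpos.le] at h3
      exact h3
    have h4 : ∑ t ∈ B, ‖∑ i ∈ Finset.univ.filter (fun i => i ≤ t), ε i • v i‖ ^ 2 ≤
        ∑ t, ‖∑ i ∈ Finset.univ.filter (fun i => i ≤ t), ε i • v i‖ ^ 2 :=
      Finset.sum_le_sum_of_subset_of_nonneg (Finset.subset_univ _)
        (fun _ _ _ => sq_nonneg _)
    have h5 : (B.card : ℝ) * lam ^ 2 * (d : ℝ) ≤ (N : ℝ) * (d : ℝ) := by
      calc (B.card : ℝ) * lam ^ 2 * (d : ℝ) = (B.card : ℝ) * (lam ^ 2 * (d : ℝ)) := by ring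
        _ ≤ (d : ℝ) * (N : ℝ) := h1.trans (h4.trans hb')
        _ = (N : ℝ) * (d : ℝ) := by ring
    exact le_of_mul_le_mul_right h5 hdpos

end Vale.Agent.Lib.P262.helper8
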