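import Mathlib

set_option linter.unusedSectionVars false

namespace Vale.Agent.Lib.P262.helper8

open scoped RealInnerProductSpace

variable {H : Type*} [NormedAddCommGroup H] [InnerProductSpace ℝ H] [FiniteDimensional ℝ H]
variable {ι : Type*}

/-- The span of the vectors `x j`, `j ∈ S`. -/
noncomputable def spanOn (x : ι → H) (S : Finset ι) : Submodule ℝ H :=
  Submodule.span ℝ (x '' (↑S : Set ι))

/-- Squared distance from `z` to the span of the vectors `x j`, `j ∈ S`. -/
noncomputable def dist2 (x : ι → H) (S : Finset ι) (z : H) : ℝ :=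
  ‖z - (spanOn x S).starProjection z‖ ^ 2

theorem dist2_nonneg (x : ι → H) (S : Finset ι) (z : H) : 0 ≤ dist2 x S z := by
  unfold dist2; positivity

theorem spanOn_mono (x : ι → H) {S T : Finset ι} (h : S ⊆ T) : spanOn x S ≤ spanOn x T := by
  unfold spanOn
  exact Submodule.span_mono (Set.image_mono (by exact_mod_cast h))

theorem mem_spanOn (x : ι → H) {S : Finset ι} {j : ι} (hj : j ∈ S) : x j ∈ spanOn x S :=
  Submodule.subset_span ⟨j, by exact_mod_cast hj, rfl⟩

/-- The squared distance is at most the squared distance to any element of the span. -/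
theorem dist2_le (x : ι → H) (S : Finset ι) (z : H) {k : H} (hk : k ∈ spanOn x S) :
    dist2 x S z ≤ ‖z - k‖ ^ 2 := by
  unfold dist2
  have h1 : ‖z - (spanOn x S).starProjection z‖ ≤ ‖z - k‖ := by
    rw [Submodule.starProjection_minimal]
    exact ciInf_le ⟨0, by rintro _ ⟨w, rfl⟩; exact norm_nonneg _⟩ (⟨k, hk⟩ : spanOn x S)
  exact pow_le_pow_left₀ (norm_nonneg _) h1 2

theorem dist2_anti (x : ι → H) {S T : Finset ι} (h : S ⊆ T) (z : H) :
    dist2 x T z ≤ dist2 x S z :=
  dist2_le x T z (spanOn_mono x h (Submodule.starProjection_apply_mem _ _))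

/-- The projection is a linear combination of the vectors `x j`, `j ∈ S`. -/
theorem exists_coeff (x : ι → H) (S : Finset ι) (z : H) :
    ∃ c : ι → ℝ, ∑ j ∈ S, c j • x j = (spanOn x S).starProjection z := by
  have h := Submodule.starProjection_apply_mem (spanOn x S) z
  unfold spanOn at h
  exact (Submodule.mem_span_image_finset_iff_exists_fun' ℝ).mp h

/-- The residual `z - proj z` is orthogonal to the span. -/
theorem inner_resid_eq_zero (x : ι → H) (S : Finset ι) (z : H) {k : H} (hk : k ∈ spanOn x S) :
    ⟪z - (spanOn x S).starProjection z, k⟫ = 0 :=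
  Submodule.starProjection_inner_eq_zero z k hk

variable [LinearOrder ι]

/-- Squared distance from `x p` to the span of the vectors `x j` with `j ∈ B`, `p < j`. -/
noncomputable def res (x : ι → H) (p : ι) (B : Finset ι) : ℝ :=
  dist2 x (B.filter (fun j => p < j)) (x p)

/-- Sum of the squared residuals of the family `x j`, `j ∈ J`, each taken against the later
members of `J`. -/
noncomputable def rho (x : ι → H) (J : Finset ι) : ℝ :=
  ∑ p ∈ J, res x p J

theorem res_nonneg (x : ι → H) (p : ι) (B : Finset ι) : 0 ≤ res x p B :=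
  dist2_nonneg _ _ _

theorem res_anti (x : ι → H) (p : ι) {B A : Finset ι} (h : B ⊆ A) :
    res x p A ≤ res x p B :=
  dist2_anti x (Finset.filter_subset_filter _ h) (x p)

theorem rho_nonneg (x : ι → H) (J : Finset ι) : 0 ≤ rho x J :=
  Finset.sum_nonneg (fun p _ => res_nonneg x p J)

end Vale.Agent.Lib.P262.helper8
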