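import Vale.Agent.Lib.P262.helper8.Concrete

set_option linter.unusedSectionVars false

namespace Vale.Agent.Lib.P262.helper8

open scoped RealInnerProductSpace

theorem euclid_inner_eq_sum {n : Type*} [Fintype n] (a b : EuclideanSpace ℝ n) :
    ⟪a, b⟫ = ∑ k, a k * b k := by
  rw [PiLp.inner_apply]
  apply Finset.sum_congr rfl
  intro k _
  simp [mul_comm]

/-- Directional form: for arbitrary test vectors `θ t r` attached to the prefix lengths there are
signs with `∑ ⟪θ t r, P t⟫ ^ 2 ≤ ∑ ‖θ t r‖ ^ 2`, where `P t` is the signed prefix sum. -/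
theorem directional_prefix (d N m : ℕ) (v : Fin N → EuclideanSpace ℝ (Fin d))
    (hv : ∀ i, ‖v i‖ ≤ 1) (θ : Fin N → Fin m → EuclideanSpace ℝ (Fin d)) :
    ∃ ε : Fin N → ℝ, (∀ i, ε i = 1 ∨ ε i = -1) ∧
      ∑ t, ∑ r, ⟪θ t r, ∑ i ∈ Finset.univ.filter (fun i => i ≤ t), ε i • v i⟫ ^ 2 ≤
        ∑ t, ∑ r, ‖θ t r‖ ^ 2 := by
  classical
  obtain ⟨x, hx⟩ : ∃ x : Fin N → EuclideanSpace ℝ (Fin N × Fin m), x = fun i =>
      WithLp.toLp 2 (fun tr : Fin N × Fin m =>
        if i ≤ tr.1 then ⟪θ tr.1 tr.2, v i⟫ else 0) := ⟨_, rfl⟩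
  obtain ⟨z, hz⟩ : ∃ z : Fin d → EuclideanSpace ℝ (Fin N × Fin m), z = fun k =>
      WithLp.toLp 2 (fun tr : Fin N × Fin m => θ tr.1 tr.2 k) := ⟨_, rfl⟩
  have hxc : ∀ (i : Fin N) (t : Fin N) (r : Fin m),
      x i (t, r) = if i ≤ t then ⟪θ t r, v i⟫ else 0 := by
    intro i t r; rw [hx]
  have hzc : ∀ (k : Fin d) (t : Fin N) (r : Fin m), z k (t, r) = θ t r k := by
    intro k t r; rw [hz]
  have hb : ∀ p : Fin N, ∑ k, (v p k) ^ 2 ≤ 1 := by
    intro p
    have h1 := EuclideanSpace.real_norm_sq_eq (v p)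
    have h2 : ‖v p‖ ^ 2 ≤ 1 := pow_le_one₀ (norm_nonneg _) (hv p)
    rw [h1] at h2
    exact h2
  have horth : ∀ p j : Fin N, p ≤ j → ⟪x p - ∑ k, v p k • z k, x j⟫ = 0 := by
    intro p j hpj
    rw [PiLp.inner_apply]
    apply Finset.sum_eq_zero
    rintro ⟨t, r⟩ _
    have h1 : (x p - ∑ k, v p k • z k) (t, r) =
        (if p ≤ t then ⟪θ t r, v p⟫ else 0) - ⟪θ t r, v p⟫ := by
      rw [PiLp.sub_apply, euclid_sum_apply, hxc, euclid_inner_eq_sum]
      congr 1
      apply Finset.sum_congr rfl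
      intro k _
      rw [PiLp.smul_apply, hzc, smul_eq_mul, mul_comm]
    change inner ℝ ((x p - ∑ k, v p k • z k) (t, r)) (x j (t, r)) = 0
    rw [h1, hxc]
    by_cases hjt : j ≤ t
    · rw [if_pos hjt, if_pos (hpj.trans hjt)]
      simp
    · rw [if_neg hjt]; simp
  obtain ⟨ε, hε, hbound⟩ := exists_signs_abstract x z (fun p k => v p k) hb horth
  refine ⟨ε, hε, ?_⟩
  have hR : ∑ k, ‖z k‖ ^ 2 = ∑ t, ∑ r, ‖θ t r‖ ^ 2 := by
    have h1 : ∀ k : Fin d, ‖z k‖ ^ 2 = ∑ t, ∑ r, (θ t r k) ^ 2 := by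
      intro k
      rw [EuclideanSpace.real_norm_sq_eq, Fintype.sum_prod_type]
      apply Finset.sum_congr rfl
      intro t _
      apply Finset.sum_congr rfl
      intro r _
      have h2 := hzc k t r
      change (z k).ofLp (t, r) = _ at h2
      rw [h2]
    simp only [h1]
    rw [Finset.sum_comm]
    apply Finset.sum_congr rfl
    intro t _
    rw [Finset.sum_comm]
    apply Finset.sum_congr rfl
    intro r _
    rw [EuclideanSpace.real_norm_sq_eq]
  have hL : ‖∑ i, ε i • x i‖ ^ 2 =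
      ∑ t, ∑ r, ⟪θ t r, ∑ i ∈ Finset.univ.filter (fun i => i ≤ t), ε i • v i⟫ ^ 2 := by
    rw [EuclideanSpace.real_norm_sq_eq, Fintype.sum_prod_type]
    apply Finset.sum_congr rfl
    intro t _
    apply Finset.sum_congr rfl
    intro r _
    have h1 : (∑ i, ε i • x i).ofLp (t, r) =
        ⟪θ t r, ∑ i ∈ Finset.univ.filter (fun i => i ≤ t), ε i • v i⟫ := by
      rw [inner_sum, Finset.sum_filter]
      have h2 : (∑ i, ε i • x i).ofLp (t, r) = ∑ i, (ε i • x i) (t, r) :=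
        euclid_sum_apply Finset.univ (fun i => ε i • x i) (t, r)
      rw [h2]
      apply Finset.sum_congr rfl
      intro i _
      rw [PiLp.smul_apply, hxc]
      by_cases h : i ≤ t
      · rw [if_pos h, if_pos h, inner_smul_right, smul_eq_mul]
      · rw [if_neg h, if_neg h]; simp
    rw [h1]
  rw [hL, hR] at hbound
  exact hbound

end Vale.Agent.Lib.P262.helper8
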