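import Vale.Agent.Lib.P262.helper8.DirectionalGen
import Vale.Agent.Lib.P262.helper23.Minimax

set_option linter.unusedSectionVars false

namespace Vale.Agent.Lib.P262.helper8

open scoped RealInnerProductSpace

/-- The signed prefix sum attached to a sign pattern `s` (true is plus, false is minus). -/
noncomputable def pre {d N : ℕ} (v : Fin N → EuclideanSpace ℝ (Fin d)) (s : Fin N → Bool)
    (t : Fin N) : EuclideanSpace ℝ (Fin d) :=
  ∑ i ∈ Finset.univ.filter (fun i => i ≤ t), (if s i then (1 : ℝ) else -1) • v i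

/-- Finitely many tests: some probability vector on the sign patterns is good for all of them. -/
theorem random_finite (d N : ℕ) (v : Fin N → EuclideanSpace ℝ (Fin d)) (hv : ∀ i, ‖v i‖ ≤ 1)
    (u : Finset (Fin N × EuclideanSpace ℝ (Fin d))) :
    ∃ μ : (Fin N → Bool) → ℝ, (∀ s, 0 ≤ μ s) ∧ ∑ s, μ s = 1 ∧
      ∀ j ∈ u, ∑ s, μ s * ⟪j.2, pre v s j.1⟫ ^ 2 ≤ ‖j.2‖ ^ 2 := by
  classical
  have key := Vale.Agent.Lib.P262.helper23.finite_minimax
    (S := Fin N → Bool) (J := {j // j ∈ u})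
    (fun s j => ⟪j.1.2, pre v s j.1.1⟫ ^ 2 - ‖j.1.2‖ ^ 2) (by
      intro ν hν
      obtain ⟨ε, hε, hb⟩ := directional_prefix_gen (R := {j // j ∈ u}) d N v hv
        (fun t j => if t = j.1.1 then Real.sqrt (ν j) • j.1.2 else 0)
      refine ⟨fun i => decide (ε i = 1), ?_⟩
      have hpre : ∀ t, pre v (fun i => decide (ε i = 1)) t =
          ∑ i ∈ Finset.univ.filter (fun i => i ≤ t), ε i • v i := by
        intro t
        unfold pre
        apply Finset.sum_congr rfl
        intro i _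
        rcases hε i with h | h
        · simp [h]
        · have h1 : ¬ ((-1 : ℝ) = 1) := by norm_num
          simp [h, h1]
      have hL : ∑ t, ∑ j : {j // j ∈ u},
          ⟪(if t = j.1.1 then Real.sqrt (ν j) • j.1.2 else 0),
            ∑ i ∈ Finset.univ.filter (fun i => i ≤ t), ε i • v i⟫ ^ 2 =
          ∑ j : {j // j ∈ u}, ν j * ⟪j.1.2,
            ∑ i ∈ Finset.univ.filter (fun i => i ≤ j.1.1), ε i • v i⟫ ^ 2 := by
        rw [Finset.sum_comm]
        apply Finset.sum_congr rfl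
        intro j _
        rw [Finset.sum_eq_single j.1.1]
        · rw [if_pos rfl, inner_smul_left, mul_pow]
          simp only [conj_trivial]
          rw [Real.sq_sqrt (hν j)]
        · intro t _ ht
          rw [if_neg ht]; simp
        · intro h; exact absurd (Finset.mem_univ _) h
      have hR : ∑ t, ∑ j : {j // j ∈ u},
          ‖(if t = j.1.1 then Real.sqrt (ν j) • j.1.2 else (0 : EuclideanSpace ℝ (Fin d)))‖ ^ 2 =
          ∑ j : {j // j ∈ u}, ν j * ‖j.1.2‖ ^ 2 := by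
        rw [Finset.sum_comm]
        apply Finset.sum_congr rfl
        intro j _
        rw [Finset.sum_eq_single j.1.1]
        · rw [if_pos rfl, norm_smul, mul_pow, Real.norm_eq_abs, sq_abs, Real.sq_sqrt (hν j)]
        · intro t _ ht
          rw [if_neg ht]; simp
        · intro h; exact absurd (Finset.mem_univ _) h
      rw [hL, hR] at hb
      simp only [hpre]
      have : ∑ j : {j // j ∈ u}, ν j * (⟪j.1.2,
          ∑ i ∈ Finset.univ.filter (fun i => i ≤ j.1.1), ε i • v i⟫ ^ 2 - ‖j.1.2‖ ^ 2) =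
          ∑ j : {j // j ∈ u}, ν j * ⟪j.1.2,
            ∑ i ∈ Finset.univ.filter (fun i => i ≤ j.1.1), ε i • v i⟫ ^ 2 -
          ∑ j : {j // j ∈ u}, ν j * ‖j.1.2‖ ^ 2 := by
        rw [← Finset.sum_sub_distrib]
        apply Finset.sum_congr rfl
        intro j _
        ring
      rw [this]
      linarith)
  obtain ⟨μ, hμ0, hμ1, hμ⟩ := key
  refine ⟨μ, hμ0, hμ1, ?_⟩
  intro j hj
  have h := hμ ⟨j, hj⟩
  simp only [mul_sub, Finset.sum_sub_distrib] at h
  rw [← Finset.sum_mul, hμ1, one_mul] at h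
  linarith

/-- Randomized form: one probability vector `μ` on the sign patterns such that, for every prefix
length and every direction, the mean of the squared projection of the signed prefix sum is at
most the squared norm of the direction. -/
theorem random_prefix (d N : ℕ) (v : Fin N → EuclideanSpace ℝ (Fin d)) (hv : ∀ i, ‖v i‖ ≤ 1) :
    ∃ μ : (Fin N → Bool) → ℝ, (∀ s, 0 ≤ μ s) ∧ ∑ s, μ s = 1 ∧
      ∀ (t : Fin N) (θ : EuclideanSpace ℝ (Fin d)),
        ∑ s, μ s * ⟪θ, pre v s t⟫ ^ 2 ≤ ‖θ‖ ^ 2 := by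
  classical
  have hcomp : IsCompact (stdSimplex ℝ (Fin N → Bool)) := isCompact_stdSimplex ℝ _
  have hne := hcomp.inter_iInter_nonempty
    (fun j : Fin N × EuclideanSpace ℝ (Fin d) =>
      {μ : (Fin N → Bool) → ℝ | ∑ s, μ s * ⟪j.2, pre v s j.1⟫ ^ 2 ≤ ‖j.2‖ ^ 2})
    (fun j => isClosed_le (by fun_prop) continuous_const)
    (fun u => by
      obtain ⟨μ, hμ0, hμ1, hμ⟩ := random_finite d N v hv u
      refine ⟨μ, ⟨hμ0, hμ1⟩, ?_⟩
      simp only [Set.mem_iInter]
      intro j hj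
      exact hμ j hj)
  obtain ⟨μ, hμs, hμ⟩ := hne
  simp only [Set.mem_iInter] at hμ
  exact ⟨μ, hμs.1, hμs.2, fun t θ => hμ (t, θ)⟩

/-- Scalar corollary: under the same probability vector every signed prefix sum has mean squared
norm at most the dimension. -/
theorem random_prefix_norm (d N : ℕ) (v : Fin N → EuclideanSpace ℝ (Fin d))
    (hv : ∀ i, ‖v i‖ ≤ 1) :
    ∃ μ : (Fin N → Bool) → ℝ, (∀ s, 0 ≤ μ s) ∧ ∑ s, μ s = 1 ∧
      (∀ (t : Fin N) (θ : EuclideanSpace ℝ (Fin d)),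
        ∑ s, μ s * ⟪θ, pre v s t⟫ ^ 2 ≤ ‖θ‖ ^ 2) ∧
      ∀ t : Fin N, ∑ s, μ s * ‖pre v s t‖ ^ 2 ≤ d := by
  classical
  obtain ⟨μ, hμ0, hμ1, hμ⟩ := random_prefix d N v hv
  refine ⟨μ, hμ0, hμ1, hμ, ?_⟩
  intro t
  have h1 : ∀ s, ‖pre v s t‖ ^ 2 =
      ∑ k : Fin d, ⟪EuclideanSpace.single k (1 : ℝ), pre v s t⟫ ^ 2 := by
    intro s
    rw [EuclideanSpace.real_norm_sq_eq]
    apply Finset.sum_congr rfl
    intro k _
    simp [EuclideanSpace.inner_single_left]
  simp only [h1, Finset.mul_sum]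
  rw [Finset.sum_comm]
  calc ∑ k : Fin d, ∑ s, μ s * ⟪EuclideanSpace.single k (1 : ℝ), pre v s t⟫ ^ 2
      ≤ ∑ k : Fin d, ‖EuclideanSpace.single k (1 : ℝ)‖ ^ 2 :=
        Finset.sum_le_sum (fun k _ => hμ t _)
    _ = d := by simp

end Vale.Agent.Lib.P262.helper8
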