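import Vale.Agent.Lib.P262.helper8.Concrete

set_option linter.unusedSectionVars false

namespace Vale.Agent.Lib.P262.helper8

open scoped RealInnerProductSpace

/-- The orthonormal basis with all weight on the full sum shows that the constant `d` in
`averaged_prefix` cannot be lowered. -/
theorem averaged_prefix_sharp (d : ℕ) (hd : 1 ≤ d) :
    ∃ (v : Fin d → EuclideanSpace ℝ (Fin d)) (ν : Fin d → ℝ),
      (∀ i, ‖v i‖ ≤ 1) ∧ (∀ t, 0 ≤ ν t) ∧ ∑ t, ν t = 1 ∧
      ∀ ε : Fin d → ℝ, (∀ i, ε i = 1 ∨ ε i = -1) →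
        (d : ℝ) ≤ ∑ t, ν t * ‖∑ i ∈ Finset.univ.filter (fun i => i ≤ t), ε i • v i‖ ^ 2 := by
  classical
  obtain ⟨l, hl⟩ : ∃ l : Fin d, ∀ i : Fin d, i ≤ l :=
    ⟨⟨d - 1, by omega⟩, fun i => by rw [Fin.le_def]; have := i.2; simp only; omega⟩
  refine ⟨fun i => EuclideanSpace.single i 1, fun t => if t = l then 1 else 0, ?_, ?_, ?_, ?_⟩
  · intro i; simp
  · intro t
    show (0 : ℝ) ≤ (if t = l then (1 : ℝ) else 0)
    split_ifs <;> norm_num
  · simp
  · intro ε hε
    have h1 : ∑ t, (if t = l then (1 : ℝ) else 0) *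
        ‖∑ i ∈ Finset.univ.filter (fun i => i ≤ t), ε i • EuclideanSpace.single i (1 : ℝ)‖ ^ 2
        = ‖∑ i ∈ Finset.univ.filter (fun i => i ≤ l),
            ε i • EuclideanSpace.single i (1 : ℝ)‖ ^ 2 := by
      simp [ite_mul]
    rw [h1]
    have h2 : Finset.univ.filter (fun i => i ≤ l) = Finset.univ := by
      ext i; simp [hl i]
    rw [h2, EuclideanSpace.real_norm_sq_eq]
    have h3 : ∀ k : Fin d, (∑ i, ε i • EuclideanSpace.single i (1 : ℝ)).ofLp k = ε k := by
      intro k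
      have h := euclid_sum_apply Finset.univ (fun i => ε i • EuclideanSpace.single i (1 : ℝ)) k
      change (∑ i, ε i • EuclideanSpace.single i (1 : ℝ)) k = ε k
      rw [h]
      simp
    simp only [h3]
    have h4 : ∀ k, ε k ^ 2 = 1 := fun k => by rcases hε k with h | h <;> rw [h] <;> norm_num
    simp [h4]

end Vale.Agent.Lib.P262.helper8
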