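import Vale.Agent.Lib.P262.helper8.Counting

set_option linter.unusedSectionVars false

namespace Vale.Agent.Lib.P262.helper8

open scoped RealInnerProductSpace

section transfer

variable {E : Type*} [NormedAddCommGroup E] [InnerProductSpace ℝ E]

/-- Transference step: for a zero-sum sequence and any signs, listing first the plus terms in
increasing order and then the minus terms in decreasing order gives an ordering whose sum of
squared norms of initial sums is at most the mean of the same quantity for the original order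
and for the signed sequence. -/
theorem transfer_step {N : ℕ} (u : Fin N → E) (hsum : ∑ i, u i = 0) (ε : Fin N → ℝ)
    (hε : ∀ i, ε i = 1 ∨ ε i = -1) :
    ∃ ρ : Equiv.Perm (Fin N),
      ∑ t, ‖∑ i ∈ Finset.univ.filter (fun i => i ≤ t), u (ρ i)‖ ^ 2 ≤
        (∑ t, ‖∑ i ∈ Finset.univ.filter (fun i => i ≤ t), u i‖ ^ 2 +
          ∑ t, ‖∑ i ∈ Finset.univ.filter (fun i => i ≤ t), ε i • u i‖ ^ 2) / 2 := by
  classical
  obtain ⟨key, hkey⟩ : ∃ key : Fin N → ℕ,
      key = fun i => if ε i = 1 then (i : ℕ) else 2 * N - 1 - (i : ℕ) := ⟨_, rfl⟩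
  have hkp : ∀ i, ε i = 1 → key i = (i : ℕ) := by
    intro i h; rw [hkey]; simp [h]
  have hkm : ∀ i, ε i = -1 → key i = 2 * N - 1 - (i : ℕ) := by
    intro i h
    have h1 : ¬ ε i = 1 := by rw [h]; norm_num
    rw [hkey]; simp [h1]
  have hkinj : Function.Injective key := by
    intro i j h
    have hi := i.2
    have hj := j.2
    apply Fin.ext
    rcases hε i with h1 | h1 <;> rcases hε j with h2 | h2
    · rw [hkp i h1, hkp j h2] at h; exact h
    · rw [hkp i h1, hkm j h2] at h; omega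
    · rw [hkm i h1, hkp j h2] at h; omega
    · rw [hkm i h1, hkm j h2] at h; omega
  obtain ⟨ρ, hρ⟩ : ∃ ρ : Equiv.Perm (Fin N), ρ = Tuple.sort key := ⟨_, rfl⟩
  have hmono : StrictMono (key ∘ ρ) := by
    rw [hρ]
    exact (Tuple.monotone_sort key).strictMono_of_injective
      (hkinj.comp (Tuple.sort key).injective)
  refine ⟨ρ, ?_⟩
  obtain ⟨D, hD⟩ : ∃ D : Fin N → E, D = fun i => ∑ j, if key j ≤ key i then u j else 0 :=
    ⟨_, rfl⟩
  have h1 : ∀ t, ∑ i ∈ Finset.univ.filter (fun i => i ≤ t), u (ρ i) = D (ρ t) := by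
    intro t
    rw [Finset.sum_filter, hD]
    have h : ∀ i, (if i ≤ t then u (ρ i) else 0) =
        (if key (ρ i) ≤ key (ρ t) then u (ρ i) else 0) := by
      intro i
      have h' : key (ρ i) ≤ key (ρ t) ↔ i ≤ t := hmono.le_iff_le
      simp only [h']
    simp only [h]
    exact Equiv.sum_comp ρ (fun j => if key j ≤ key (ρ t) then u j else 0)
  have h2 : ∑ t, ‖∑ i ∈ Finset.univ.filter (fun i => i ≤ t), u (ρ i)‖ ^ 2 = ∑ i, ‖D i‖ ^ 2 := by
    simp only [h1]
    exact Equiv.sum_comp ρ (fun i => ‖D i‖ ^ 2)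
  rw [h2]
  obtain ⟨a, ha⟩ : ∃ a : ℕ → E, a = fun k =>
      ∑ j : Fin N, if (j : ℕ) < k then ((1 + ε j) / 2) • u j else 0 := ⟨_, rfl⟩
  obtain ⟨b, hb⟩ : ∃ b : ℕ → E, b = fun k =>
      ∑ j : Fin N, if (j : ℕ) < k then ((1 - ε j) / 2) • u j else 0 := ⟨_, rfl⟩
  have hDle : ∀ i : Fin N, ‖D i‖ ^ 2 ≤ ‖a ((i : ℕ) + 1)‖ ^ 2 + ‖b (i : ℕ)‖ ^ 2 := by
    intro i
    have hi := i.2
    rcases hε i with h | h
    · have hDa : D i = a ((i : ℕ) + 1) := by
        rw [hD, ha]
        apply Finset.sum_congr rfl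
        intro j _
        have hj := j.2
        rcases hε j with h' | h'
        · rw [hkp i h, hkp j h', h']
          by_cases hc : (j : ℕ) ≤ (i : ℕ)
          · rw [if_pos hc, if_pos (by omega)]; norm_num
          · rw [if_neg hc, if_neg (by omega)]
        · rw [hkp i h, hkm j h', h']
          rw [if_neg (by omega)]
          split_ifs <;> simp
      rw [hDa]
      nlinarith [sq_nonneg ‖b (i : ℕ)‖]
    · have hDb : D i + b (i : ℕ) = ∑ j, u j := by
        rw [hD, hb, ← Finset.sum_add_distrib]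
        apply Finset.sum_congr rfl
        intro j _
        have hj := j.2
        rcases hε j with h' | h'
        · rw [hkm i h, hkp j h', h']
          rw [if_pos (by omega)]
          split_ifs <;> simp
        · rw [hkm i h, hkm j h', h']
          by_cases hc : (j : ℕ) < (i : ℕ)
          · rw [if_neg (by omega), if_pos hc]; norm_num
          · rw [if_pos (by omega), if_neg hc]; simp
      rw [hsum] at hDb
      have hDb' : D i = - b (i : ℕ) := eq_neg_of_add_eq_zero_left hDb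
      rw [hDb', norm_neg]
      nlinarith [sq_nonneg ‖a ((i : ℕ) + 1)‖]
  have hb0 : b 0 = 0 := by rw [hb]; simp
  have hshift : ∑ i : Fin N, ‖b (i : ℕ)‖ ^ 2 ≤ ∑ i : Fin N, ‖b ((i : ℕ) + 1)‖ ^ 2 := by
    rw [Fin.sum_univ_eq_sum_range (fun k => ‖b k‖ ^ 2) N,
      Fin.sum_univ_eq_sum_range (fun k => ‖b (k + 1)‖ ^ 2) N]
    have h := Finset.sum_range_sub (fun k => ‖b k‖ ^ 2) N
    rw [Finset.sum_sub_distrib] at h
    have h0 : ‖b 0‖ ^ 2 = 0 := by rw [hb0]; simp
    nlinarith [sq_nonneg ‖b N‖]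
  have hpar : ∀ i : Fin N, ‖a ((i : ℕ) + 1)‖ ^ 2 + ‖b ((i : ℕ) + 1)‖ ^ 2 =
      (‖∑ j ∈ Finset.univ.filter (fun j => j ≤ i), u j‖ ^ 2 +
        ‖∑ j ∈ Finset.univ.filter (fun j => j ≤ i), ε j • u j‖ ^ 2) / 2 := by
    intro i
    have hcond : ∀ j : Fin N, ((j : ℕ) < (i : ℕ) + 1) ↔ j ≤ i := by
      intro j; rw [Fin.le_def]; omega
    have ha' : a ((i : ℕ) + 1) = (1 / 2 : ℝ) •
        (∑ j ∈ Finset.univ.filter (fun j => j ≤ i), u j +
          ∑ j ∈ Finset.univ.filter (fun j => j ≤ i), ε j • u j) := by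
      rw [ha, ← Finset.sum_add_distrib, Finset.smul_sum, Finset.sum_filter]
      apply Finset.sum_congr rfl
      intro j _
      simp only [hcond]
      split_ifs
      · module
      · simp
    have hb' : b ((i : ℕ) + 1) = (1 / 2 : ℝ) •
        (∑ j ∈ Finset.univ.filter (fun j => j ≤ i), u j -
          ∑ j ∈ Finset.univ.filter (fun j => j ≤ i), ε j • u j) := by
      rw [hb, ← Finset.sum_sub_distrib, Finset.smul_sum, Finset.sum_filter]
      apply Finset.sum_congr rfl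
      intro j _
      simp only [hcond]
      split_ifs
      · module
      · simp
    rw [ha', hb', norm_smul, norm_smul, mul_pow, mul_pow, norm_add_sq_real, norm_sub_sq_real]
    norm_num
    ring
  calc ∑ i, ‖D i‖ ^ 2 ≤ ∑ i : Fin N, (‖a ((i : ℕ) + 1)‖ ^ 2 + ‖b (i : ℕ)‖ ^ 2) :=
        Finset.sum_le_sum (fun i _ => hDle i)
    _ = ∑ i : Fin N, ‖a ((i : ℕ) + 1)‖ ^ 2 + ∑ i : Fin N, ‖b (i : ℕ)‖ ^ 2 :=
        Finset.sum_add_distrib
    _ ≤ ∑ i : Fin N, ‖a ((i : ℕ) + 1)‖ ^ 2 + ∑ i : Fin N, ‖b ((i : ℕ) + 1)‖ ^ 2 := by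
        linarith [hshift]
    _ = ∑ i : Fin N, (‖a ((i : ℕ) + 1)‖ ^ 2 + ‖b ((i : ℕ) + 1)‖ ^ 2) :=
        Finset.sum_add_distrib.symm
    _ = ∑ i : Fin N, (‖∑ j ∈ Finset.univ.filter (fun j => j ≤ i), u j‖ ^ 2 +
          ‖∑ j ∈ Finset.univ.filter (fun j => j ≤ i), ε j • u j‖ ^ 2) / 2 :=
        Finset.sum_congr rfl (fun i _ => hpar i)
    _ = _ := by
        rw [← Finset.sum_div, Finset.sum_add_distrib]

end transfer

/-- Mean square form of the rearrangement problem: a zero-sum family in the Euclidean unit ball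
can be ordered so that the squared norms of its initial sums add up to at most `d * N`. -/
theorem steinitz_mean_square (d N : ℕ) (v : Fin N → EuclideanSpace ℝ (Fin d))
    (hv : ∀ i, ‖v i‖ ≤ 1) (hsum : ∑ i, v i = 0) :
    ∃ π : Equiv.Perm (Fin N),
      ∑ t, ‖∑ i ∈ Finset.univ.filter (fun i => i ≤ t), v (π i)‖ ^ 2 ≤ d * N := by
  classical
  obtain ⟨π, hπ⟩ := Finite.exists_min (fun π : Equiv.Perm (Fin N) =>
    ∑ t, ‖∑ i ∈ Finset.univ.filter (fun i => i ≤ t), v (π i)‖ ^ 2)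
  refine ⟨π, ?_⟩
  have hv' : ∀ i, ‖v (π i)‖ ≤ 1 := fun i => hv _
  have hsum' : ∑ i, v (π i) = 0 := by rw [Equiv.sum_comp π v]; exact hsum
  obtain ⟨ε, hε, hb, -⟩ := counting_prefix d N (fun i => v (π i)) hv'
  obtain ⟨ρ, hρ⟩ := transfer_step (fun i => v (π i)) hsum' ε hε
  have hmin := hπ (ρ.trans π)
  simp only [Equiv.trans_apply] at hmin
  linarith

end Vale.Agent.Lib.P262.helper8
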