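import Vale.Agent.Lib.P262.helper8.Steinitz

set_option linter.unusedSectionVars false

namespace Vale.Agent.Lib.P262.helper8

open scoped RealInnerProductSpace

/-- A zero-one vector minus a constant has squared length at least `j * (d - j) / d`, where `j`
is the number of ones. -/
theorem indicator_var_lower {d : ℕ} (hd : 1 ≤ d) (p : Fin d → Prop) [DecidablePred p] (c : ℝ) :
    (∑ k : Fin d, if p k then (1 : ℝ) else 0) *
        (d - ∑ k : Fin d, if p k then (1 : ℝ) else 0) / d ≤
      ∑ k : Fin d, ((if p k then (1 : ℝ) else 0) - c) ^ 2 := by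
  have hdpos : (0 : ℝ) < d := by exact_mod_cast hd
  obtain ⟨j, hj⟩ : ∃ j : ℝ, j = ∑ k : Fin d, if p k then (1 : ℝ) else 0 := ⟨_, rfl⟩
  rw [← hj]
  have h1 : ∑ k : Fin d, ((if p k then (1 : ℝ) else 0) - c) ^ 2 = j - 2 * c * j + d * c ^ 2 := by
    have h2 : ∀ k : Fin d, ((if p k then (1 : ℝ) else 0) - c) ^ 2 =
        (if p k then (1 : ℝ) else 0) - 2 * c * (if p k then (1 : ℝ) else 0) + c ^ 2 := by
      intro k; split_ifs <;> ring
    simp only [h2, Finset.sum_add_distrib, Finset.sum_sub_distrib, ← Finset.mul_sum, ← hj]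
    simp
  rw [h1, div_le_iff₀ hdpos]
  nlinarith [sq_nonneg (d * c - j)]

/-- Sum over the ranks of an injective family. -/
theorem rank_sum {d : ℕ} {T : Type*} [LinearOrder T] (τ : Fin d → T)
    (hτ : Function.Injective τ) (g : ℝ → ℝ) :
    ∑ k : Fin d, g (∑ k' : Fin d, if τ k' ≤ τ k then (1 : ℝ) else 0) =
      ∑ k : Fin d, g ((k : ℝ) + 1) := by
  classical
  have hmono : StrictMono (τ ∘ Tuple.sort τ) :=
    (Tuple.monotone_sort τ).strictMono_of_injective (hτ.comp (Tuple.sort τ).injective)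
  rw [← Equiv.sum_comp (Tuple.sort τ)
    (fun k => g (∑ k' : Fin d, if τ k' ≤ τ k then (1 : ℝ) else 0))]
  apply Finset.sum_congr rfl
  intro k _
  congr 1
  rw [← Equiv.sum_comp (Tuple.sort τ)
    (fun k' => if τ k' ≤ τ (Tuple.sort τ k) then (1 : ℝ) else 0)]
  have h : ∀ k'' : Fin d, (τ (Tuple.sort τ k'') ≤ τ (Tuple.sort τ k)) ↔ k'' ≤ k :=
    fun k'' => hmono.le_iff_le
  simp only [h]
  rw [Finset.sum_boole]
  have h2 : (Finset.univ.filter (fun k'' : Fin d => k'' ≤ k)) = Finset.Iic k := by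
    ext x; simp
  rw [h2, Fin.card_Iic]
  push_cast
  ring

theorem sum_range_g (D : ℝ) (n : ℕ) :
    ∑ j ∈ Finset.range n, ((j : ℝ) + 1) * (D - ((j : ℝ) + 1)) =
      D * (n * (n + 1) / 2) - n * (n + 1) * (2 * n + 1) / 6 := by
  induction n with
  | zero => simp
  | succ n ih =>
    rw [Finset.sum_range_succ, ih]
    push_cast
    ring

theorem sum_fin_g (d : ℕ) (hd : 1 ≤ d) :
    ∑ k : Fin d, ((k : ℝ) + 1) * (d - ((k : ℝ) + 1)) / d = ((d : ℝ) ^ 2 - 1) / 6 := by
  have hdpos : (0 : ℝ) < d := by exact_mod_cast hd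
  rw [Fin.sum_univ_eq_sum_range (fun j => ((j : ℝ) + 1) * (d - ((j : ℝ) + 1)) / d) d,
    ← Finset.sum_div, sum_range_g]
  field_simp
  ring

/-- The basis vectors followed by `d` copies of minus their mean: a zero-sum family in the unit
ball for which every ordering has squared initial sums adding up to at least `(d ^ 2 - 1) / 6`. -/
theorem steinitz_mean_square_lower (d : ℕ) (hd : 1 ≤ d) :
    ∃ v : Fin (d + d) → EuclideanSpace ℝ (Fin d), (∀ i, ‖v i‖ ≤ 1) ∧ ∑ i, v i = 0 ∧
      ∀ π : Equiv.Perm (Fin (d + d)),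
        ((d : ℝ) ^ 2 - 1) / 6 ≤
          ∑ t, ‖∑ i ∈ Finset.univ.filter (fun i => i ≤ t), v (π i)‖ ^ 2 := by
  classical
  have hdpos : (0 : ℝ) < d := by exact_mod_cast hd
  obtain ⟨v, hvdef⟩ : ∃ v : Fin (d + d) → EuclideanSpace ℝ (Fin d),
      v = Fin.addCases (fun k => EuclideanSpace.single k (1 : ℝ))
        (fun _ => WithLp.toLp 2 (fun _ => -(1 : ℝ) / d)) := ⟨_, rfl⟩
  have hvL : ∀ k : Fin d, v (Fin.castAdd d k) = EuclideanSpace.single k (1 : ℝ) := by
    intro k; rw [hvdef]; simp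
  have hvR : ∀ l : Fin d, v (Fin.natAdd d l) = WithLp.toLp 2 (fun _ => -(1 : ℝ) / d) := by
    intro l; rw [hvdef]; exact Fin.addCases_right _
  have hcL : ∀ k k' : Fin d, v (Fin.castAdd d k) k' = if k' = k then 1 else 0 := by
    intro k k'; rw [hvL]; simp
  have hcR : ∀ l k' : Fin d, v (Fin.natAdd d l) k' = -(1 : ℝ) / d := by
    intro l k'; rw [hvR]
  refine ⟨v, ?_, ?_, ?_⟩
  · intro i
    refine Fin.addCases (fun k => ?_) (fun l => ?_) i
    · rw [hvL]; simp
    · rw [hvR]
      have h1 : ‖(WithLp.toLp 2 (fun _ : Fin d => -(1 : ℝ) / d) :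
          EuclideanSpace ℝ (Fin d))‖ ^ 2 ≤ 1 := by
        rw [EuclideanSpace.real_norm_sq_eq]
        simp only [Finset.sum_const, Finset.card_univ, Fintype.card_fin, nsmul_eq_mul]
        have h2 : (d : ℝ) * (-(1 : ℝ) / d) ^ 2 = 1 / d := by field_simp
        rw [h2, div_le_one hdpos]
        exact_mod_cast hd
      exact (sq_le_one_iff₀ (norm_nonneg _)).mp h1
  · ext k'
    have h0 : (∑ i, v i) k' = 0 := by
      rw [euclid_sum_apply, Fin.sum_univ_add]
      simp only [hcL, hcR]
      simp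
      field_simp
      ring
    exact h0
  · intro π
    obtain ⟨τ, hτdef⟩ : ∃ τ : Fin d → Fin (d + d), τ = fun k => π.symm (Fin.castAdd d k) :=
      ⟨_, rfl⟩
    have hτinj : Function.Injective τ := by
      intro a b h
      rw [hτdef] at h
      exact Fin.castAdd_injective _ _ (π.symm.injective h)
    have hcoord : ∀ (t : Fin (d + d)) (k' : Fin d),
        (∑ i ∈ Finset.univ.filter (fun i => i ≤ t), v (π i)) k' =
          (if τ k' ≤ t then (1 : ℝ) else 0) -
            (∑ l : Fin d, if π.symm (Fin.natAdd d l) ≤ t then (1 : ℝ) else 0) / d := by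
      intro t k'
      rw [euclid_sum_apply, Finset.sum_filter]
      have h1 : ∑ i, (if i ≤ t then v (π i) k' else 0) =
          ∑ a, (if π.symm a ≤ t then v a k' else 0) := by
        rw [← Equiv.sum_comp π (fun a => if π.symm a ≤ t then v a k' else 0)]
        simp
      rw [h1, Fin.sum_univ_add]
      simp only [hcL, hcR]
      have hfirst : ∑ k : Fin d, (if π.symm (Fin.castAdd d k) ≤ t then
          (if k' = k then (1 : ℝ) else 0) else 0) = if τ k' ≤ t then (1 : ℝ) else 0 := by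
        rw [Finset.sum_eq_single k']
        · rw [hτdef]; simp
        · intro b _ hb
          have hb' : ¬ k' = b := fun h => hb h.symm
          simp [hb']
        · intro h; exact absurd (Finset.mem_univ _) h
      have hsecond : ∑ l : Fin d, (if π.symm (Fin.natAdd d l) ≤ t then -(1 : ℝ) / d else 0) =
          -((∑ l : Fin d, if π.symm (Fin.natAdd d l) ≤ t then (1 : ℝ) else 0) / d) := by
        rw [Finset.sum_div, ← Finset.sum_neg_distrib]
        apply Finset.sum_congr rfl
        intro l _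
        split_ifs <;> ring
      rw [hfirst, hsecond]
      ring
    have hnorm : ∀ t : Fin (d + d),
        (∑ k' : Fin d, if τ k' ≤ t then (1 : ℝ) else 0) *
          (d - ∑ k' : Fin d, if τ k' ≤ t then (1 : ℝ) else 0) / d ≤
        ‖∑ i ∈ Finset.univ.filter (fun i => i ≤ t), v (π i)‖ ^ 2 := by
      intro t
      rw [EuclideanSpace.real_norm_sq_eq]
      have h1 := indicator_var_lower hd (fun k' => τ k' ≤ t)
        ((∑ l : Fin d, if π.symm (Fin.natAdd d l) ≤ t then (1 : ℝ) else 0) / d)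
      refine h1.trans (le_of_eq ?_)
      apply Finset.sum_congr rfl
      intro k' _
      have h2 := hcoord t k'
      change (∑ i ∈ Finset.univ.filter (fun i => i ≤ t), v (π i)).ofLp k' = _ at h2
      rw [h2]
    calc ((d : ℝ) ^ 2 - 1) / 6
        = ∑ k : Fin d, ((k : ℝ) + 1) * (d - ((k : ℝ) + 1)) / d := (sum_fin_g d hd).symm
      _ = ∑ k : Fin d, (fun x : ℝ => x * (d - x) / d)
            (∑ k' : Fin d, if τ k' ≤ τ k then (1 : ℝ) else 0) :=
          (rank_sum τ hτinj (fun x : ℝ => x * (d - x) / d)).symm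
      _ ≤ ∑ k : Fin d, ‖∑ i ∈ Finset.univ.filter (fun i => i ≤ τ k), v (π i)‖ ^ 2 :=
          Finset.sum_le_sum (fun k _ => hnorm (τ k))
      _ = ∑ t ∈ Finset.univ.image τ,
            ‖∑ i ∈ Finset.univ.filter (fun i => i ≤ t), v (π i)‖ ^ 2 :=
          (Finset.sum_image (s := Finset.univ) (g := τ)
            (f := fun t => ‖∑ i ∈ Finset.univ.filter (fun i => i ≤ t), v (π i)‖ ^ 2)
            (fun a _ b _ h => hτinj h)).symm
      _ ≤ ∑ t, ‖∑ i ∈ Finset.univ.filter (fun i => i ≤ t), v (π i)‖ ^ 2 :=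
          Finset.sum_le_sum_of_subset_of_nonneg (Finset.subset_univ _)
            (fun _ _ _ => sq_nonneg _)

end Vale.Agent.Lib.P262.helper8
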