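import Vale.Agent.Lib.P262.helper8.Defs

set_option linter.unusedSectionVars false

namespace Vale.Agent.Lib.P262.helper8

open scoped RealInnerProductSpace

variable {H : Type*} [NormedAddCommGroup H] [InnerProductSpace ℝ H] [FiniteDimensional ℝ H]
variable {ι : Type*} [LinearOrder ι]

/-- Induction statement of the sign-selection walk: starting from the fractional point `α` on the
index set `A` and an offset `c`, signs can be chosen on `A` with the stated bound. -/
def Good (x : ι → H) (A : Finset ι) (α : ι → ℝ) (c : H) : Prop :=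
  ∃ (ε : ι → ℝ) (J : Finset ι), J ⊆ A ∧ (∀ i ∈ A, ε i = 1 ∨ ε i = -1) ∧
    ‖c + ∑ i ∈ A, (ε i - α i) • x i‖ ^ 2 ≤ ‖c‖ ^ 2 + rho x J ∧
    ∀ p ∈ A, (∀ i ∈ A, p ≤ i) →
      ‖c + ∑ i ∈ A, (ε i - α i) • x i‖ ^ 2 ≤ ‖c‖ ^ 2 + rho x J - α p ^ 2 * res x p A

theorem good_of_min (x : ι → H) (A : Finset ι) (α : ι → ℝ) (c : H) (p : ι) (hp : p ∈ A)
    (hmin : ∀ i ∈ A, p ≤ i) (ε : ι → ℝ) (J : Finset ι) (hJ : J ⊆ A)
    (hε : ∀ i ∈ A, ε i = 1 ∨ ε i = -1)
    (hb : ‖c + ∑ i ∈ A, (ε i - α i) • x i‖ ^ 2 ≤ ‖c‖ ^ 2 + rho x J - α p ^ 2 * res x p A) :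
    Good x A α c := by
  refine ⟨ε, J, hJ, hε, ?_, ?_⟩
  · have h1 : 0 ≤ α p ^ 2 * res x p A := mul_nonneg (sq_nonneg _) (res_nonneg x p A)
    linarith
  · intro p' hp' hmin'
    have : p' = p := le_antisymm (hmin' p hp) (hmin p' hp')
    subst this
    exact hb

theorem lift_erase (x : ι → H) (A : Finset ι) (α : ι → ℝ) (i : ι) (hi : i ∈ A)
    (hαi : α i = 1 ∨ α i = -1) (ε' : ι → ℝ) (hε' : ∀ j ∈ A.erase i, ε' j = 1 ∨ ε' j = -1) :
    (∀ j ∈ A, Function.update ε' i (α i) j = 1 ∨ Function.update ε' i (α i) j = -1) ∧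
      ∑ j ∈ A, (Function.update ε' i (α i) j - α j) • x j =
        ∑ j ∈ A.erase i, (ε' j - α j) • x j := by
  constructor
  · intro j hj
    by_cases hji : j = i
    · subst hji; simpa using hαi
    · rw [Function.update_of_ne hji]; exact hε' j (Finset.mem_erase.mpr ⟨hji, hj⟩)
  · rw [← Finset.add_sum_erase A _ hi]
    simp only [Function.update_self, sub_self, zero_smul, zero_add]
    apply Finset.sum_congr rfl
    intro j hj
    rw [Function.update_of_ne (Finset.ne_of_mem_erase hj)]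

theorem abs_one_cases {a : ℝ} (h : |a| = 1) : a = 1 ∨ a = -1 := by
  rcases abs_cases a with ⟨h1, _⟩ | ⟨h1, _⟩
  · left; linarith
  · right; linarith

/-- Boundary step: if some coordinate of `α` already has absolute value one, remove a
coordinate and use the statement for smaller index sets. -/
theorem good_boundary (x : ι → H) (A : Finset ι)
    (IH : ∀ A' : Finset ι, A'.card < A.card → ∀ (α : ι → ℝ) (c : H),
      (∀ i ∈ A', |α i| ≤ 1) → Good x A' α c)
    (p : ι) (hpA : p ∈ A) (hpmin : ∀ i ∈ A, p ≤ i)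
    (α : ι → ℝ) (c : H) (hα : ∀ i ∈ A, |α i| ≤ 1) (hex : ∃ i ∈ A, |α i| = 1) :
    Good x A α c := by
  by_cases hp1 : |α p| = 1
  · have hcard : (A.erase p).card < A.card := Finset.card_erase_lt_of_mem hpA
    obtain ⟨ε', J', hJ', hε', hb0, -⟩ := IH (A.erase p) hcard α c
      (fun i hi => hα i (Finset.mem_of_mem_erase hi))
    have hαp : α p = 1 ∨ α p = -1 := abs_one_cases hp1
    obtain ⟨hsign, hsum⟩ := lift_erase x A α p hpA hαp ε' hε'
    have hpJ' : p ∉ J' := fun h => (Finset.mem_erase.mp (hJ' h)).1 rfl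
    have hJA : insert p J' ⊆ A :=
      Finset.insert_subset hpA (hJ'.trans (Finset.erase_subset _ _))
    refine good_of_min x A α c p hpA hpmin _ (insert p J') hJA hsign ?_
    rw [hsum]
    have hrho : rho x (insert p J') = res x p (insert p J') + rho x J' := by
      unfold rho
      rw [Finset.sum_insert hpJ']
      congr 1
      apply Finset.sum_congr rfl
      intro q hq
      have hpq : p ≤ q := hpmin q (Finset.mem_of_mem_erase (hJ' hq))
      unfold res
      rw [Finset.filter_insert, if_neg (not_lt.mpr hpq)]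
    have hres : res x p A ≤ res x p (insert p J') := res_anti x p hJA
    have hα2 : α p ^ 2 = 1 := by rcases hαp with h | h <;> rw [h] <;> norm_num
    rw [hrho, hα2]
    linarith
  · obtain ⟨i, hiA, hi1⟩ := hex
    have hip : i ≠ p := fun h => hp1 (h ▸ hi1)
    have hcard : (A.erase i).card < A.card := Finset.card_erase_lt_of_mem hiA
    obtain ⟨ε', J, hJ, hε', -, hb4⟩ := IH (A.erase i) hcard α c
      (fun j hj => hα j (Finset.mem_of_mem_erase hj))
    have hαi : α i = 1 ∨ α i = -1 := abs_one_cases hi1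
    obtain ⟨hsign, hsum⟩ := lift_erase x A α i hiA hαi ε' hε'
    have hpA' : p ∈ A.erase i := Finset.mem_erase.mpr ⟨fun h => hip h.symm, hpA⟩
    have h4 := hb4 p hpA' (fun j hj => hpmin j (Finset.mem_of_mem_erase hj))
    refine good_of_min x A α c p hpA hpmin _ J (hJ.trans (Finset.erase_subset _ _)) hsign ?_
    rw [hsum]
    have hres : res x p A ≤ res x p (A.erase i) := res_anti x p (Finset.erase_subset _ _)
    have h5 : α p ^ 2 * res x p A ≤ α p ^ 2 * res x p (A.erase i) :=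
      mul_le_mul_of_nonneg_left hres (sq_nonneg _)
    linarith

/-- Hitting time of the walls of the cube along a direction `w`. -/
theorem exists_hit (A : Finset ι) (α w : ι → ℝ) (hlt : ∀ i ∈ A, |α i| < 1)
    (hw : ∃ i ∈ A, w i ≠ 0) :
    ∃ δ : ℝ, 0 < δ ∧ (∀ i ∈ A, |α i + δ * w i| ≤ 1) ∧ ∃ i ∈ A, |α i + δ * w i| = 1 := by
  classical
  obtain ⟨τ, hτ⟩ : ∃ τ : ι → ℝ, τ = fun i =>
      if 0 < w i then (1 - α i) / w i else (-1 - α i) / w i := ⟨_, rfl⟩
  have hτpos : ∀ i, 0 < w i → τ i * w i = 1 - α i := by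
    intro i hi
    rw [hτ]; simp only [if_pos hi]
    exact div_mul_cancel₀ _ hi.ne'
  have hτneg : ∀ i, w i < 0 → τ i * w i = -1 - α i := by
    intro i hi
    rw [hτ]; simp only [if_neg (not_lt.mpr hi.le)]
    exact div_mul_cancel₀ _ hi.ne
  obtain ⟨T, hT⟩ : ∃ T : Finset ι, T = A.filter (fun i => w i ≠ 0) := ⟨_, rfl⟩
  have hTne : T.Nonempty := by
    obtain ⟨i, hi, hwi⟩ := hw
    exact ⟨i, by rw [hT, Finset.mem_filter]; exact ⟨hi, hwi⟩⟩
  obtain ⟨i0, hi0T, hi0min⟩ := Finset.exists_min_image T τ hTne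
  have hmemT : ∀ i, i ∈ T → i ∈ A ∧ w i ≠ 0 := by
    intro i hi; rw [hT, Finset.mem_filter] at hi; exact hi
  have hτgt : ∀ i ∈ T, 0 < τ i := by
    intro i hi
    obtain ⟨hiA, hwi⟩ := hmemT i hi
    have hαi := abs_lt.mp (hlt i hiA)
    rcases lt_or_gt_of_ne hwi with hneg | hpos
    · have h := hτneg i hneg
      by_contra hcon
      have hle : τ i ≤ 0 := not_lt.mp hcon
      have : 0 ≤ τ i * w i := mul_nonneg_of_nonpos_of_nonpos hle hneg.le
      linarith
    · have h := hτpos i hpos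
      by_contra hcon
      have hle : τ i ≤ 0 := not_lt.mp hcon
      have : τ i * w i ≤ 0 := mul_nonpos_of_nonpos_of_nonneg hle hpos.le
      linarith
  refine ⟨τ i0, hτgt i0 hi0T, ?_, ?_⟩
  · intro i hi
    have hαi := abs_lt.mp (hlt i hi)
    by_cases h0 : w i = 0
    · rw [h0, mul_zero, add_zero]; exact (hlt i hi).le
    · have hiT : i ∈ T := by rw [hT, Finset.mem_filter]; exact ⟨hi, h0⟩
      have hle : τ i0 ≤ τ i := hi0min i hiT
      have hδ : 0 < τ i0 := hτgt i0 hi0T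
      rw [abs_le]
      rcases lt_or_gt_of_ne h0 with hneg | hpos
      · have h1 : τ i * w i ≤ τ i0 * w i := mul_le_mul_of_nonpos_right hle hneg.le
        have h2 : τ i0 * w i ≤ 0 := mul_nonpos_of_nonneg_of_nonpos hδ.le hneg.le
        have h3 := hτneg i hneg
        constructor <;> linarith
      · have h1 : τ i0 * w i ≤ τ i * w i := mul_le_mul_of_nonneg_right hle hpos.le
        have h2 : 0 ≤ τ i0 * w i := mul_nonneg hδ.le hpos.le
        have h3 := hτpos i hpos
        constructor <;> linarith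
  · obtain ⟨hi0A, hwi0⟩ := hmemT i0 hi0T
    refine ⟨i0, hi0A, ?_⟩
    rcases lt_or_gt_of_ne hwi0 with hneg | hpos
    · rw [hτneg i0 hneg]; simp
    · rw [hτpos i0 hpos]; simp

/-- Interior step: move along the direction that keeps the fractional sum on the line through
the residual of the pivot until a wall of the cube is hit. -/
theorem good_interior (x : ι → H) (A : Finset ι)
    (hbdry : ∀ (α : ι → ℝ) (c : H), (∀ i ∈ A, |α i| ≤ 1) → (∃ i ∈ A, |α i| = 1) → Good x A α c)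
    (p : ι) (hpA : p ∈ A) (hpmin : ∀ i ∈ A, p ≤ i)
    (α : ι → ℝ) (c : H) (hlt : ∀ i ∈ A, |α i| < 1) :
    Good x A α c := by
  classical
  have hS : A.filter (fun j => p < j) = A.erase p := by
    ext j
    simp only [Finset.mem_filter, Finset.mem_erase]
    constructor
    · rintro ⟨hj, hpj⟩; exact ⟨ne_of_gt hpj, hj⟩
    · rintro ⟨hne, hj⟩; exact ⟨hj, lt_of_le_of_ne (hpmin j hj) (Ne.symm hne)⟩
  obtain ⟨P, hP⟩ : ∃ P : H, P = (spanOn x (A.erase p)).starProjection (x p) := ⟨_, rfl⟩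
  obtain ⟨y, hy⟩ : ∃ y : H, y = x p - P := ⟨_, rfl⟩
  have hres : res x p A = ‖y‖ ^ 2 := by
    rw [hy, hP]; unfold res; rw [hS]; rfl
  obtain ⟨cf, hcf⟩ := exists_coeff x (A.erase p) (x p)
  obtain ⟨u, hu⟩ : ∃ u : ι → ℝ, u = fun i => if i = p then 1 else - cf i := ⟨_, rfl⟩
  have hup : u p = 1 := by rw [hu]; simp
  have hune : ∀ i, i ≠ p → u i = - cf i := by intro i hi; rw [hu]; simp [hi]
  have husum : ∑ i ∈ A, u i • x i = y := by
    rw [← Finset.add_sum_erase A _ hpA, hup, one_smul, hy, hP, ← hcf, sub_eq_add_neg,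
      ← Finset.sum_neg_distrib]
    congr 1
    apply Finset.sum_congr rfl
    intro i hi
    rw [hune i (Finset.ne_of_mem_erase hi), neg_smul]
  obtain ⟨s, hs⟩ : ∃ s : ℝ, s = ⟪c, y⟫ - α p * ‖y‖ ^ 2 := ⟨_, rfl⟩
  obtain ⟨σ, hσ, hσs⟩ : ∃ σ : ℝ, (σ = 1 ∨ σ = -1) ∧ σ * s ≤ 0 := by
    by_cases h : s ≤ 0
    · exact ⟨1, Or.inl rfl, by simpa using h⟩
    · exact ⟨-1, Or.inr rfl, by have h2 := not_le.mp h; linarith⟩
  have hσ0 : σ ≠ 0 := by rcases hσ with h | h <;> rw [h] <;> norm_num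
  obtain ⟨δ, hδpos, hδle, i0, hi0A, hi0⟩ := exists_hit A α (fun i => σ * u i) hlt
    ⟨p, hpA, by simp [hup, hσ0]⟩
  obtain ⟨α', hα'⟩ : ∃ α' : ι → ℝ, α' = fun i => α i + δ * (σ * u i) := ⟨_, rfl⟩
  obtain ⟨c', hc'⟩ : ∃ c' : H, c' = c + (δ * σ) • y := ⟨_, rfl⟩
  obtain ⟨ε, J, hJ, hε, -, hb4⟩ := hbdry α' c' (by rw [hα']; exact hδle)
    ⟨i0, hi0A, by rw [hα']; exact hi0⟩
  have h4 := hb4 p hpA hpmin
  have hsumeq : c' + ∑ i ∈ A, (ε i - α' i) • x i = c + ∑ i ∈ A, (ε i - α i) • x i := by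
    have h1 : ∑ i ∈ A, (ε i - α' i) • x i = ∑ i ∈ A, (ε i - α i) • x i - (δ * σ) • y := by
      rw [← husum, Finset.smul_sum, ← Finset.sum_sub_distrib]
      apply Finset.sum_congr rfl
      intro i _
      rw [hα', smul_smul, ← sub_smul]
      congr 1; ring
    rw [h1, hc']; abel
  refine good_of_min x A α c p hpA hpmin ε J hJ hε ?_
  rw [← hsumeq]
  have hc'norm : ‖c'‖ ^ 2 = ‖c‖ ^ 2 + 2 * (δ * σ) * ⟪c, y⟫ + (δ * σ) ^ 2 * ‖y‖ ^ 2 := by
    rw [hc', norm_add_sq_real, inner_smul_right, norm_smul, mul_pow, Real.norm_eq_abs, sq_abs]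
    ring
  have hα'p : α' p = α p + δ * σ := by rw [hα']; simp [hup]
  rw [hres] at h4 ⊢
  rw [hc'norm, hα'p] at h4
  have hkey : 2 * (δ * σ) * ⟪c, y⟫ + (δ * σ) ^ 2 * ‖y‖ ^ 2 - (α p + δ * σ) ^ 2 * ‖y‖ ^ 2
      = 2 * δ * (σ * s) - α p ^ 2 * ‖y‖ ^ 2 := by
    rw [hs]; ring
  have h5 : 2 * δ * (σ * s) ≤ 0 := by nlinarith
  linarith

theorem good_all (x : ι → H) : ∀ (n : ℕ) (A : Finset ι), A.card = n → ∀ (α : ι → ℝ) (c : H),
    (∀ i ∈ A, |α i| ≤ 1) → Good x A α c := by
  intro n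
  induction n using Nat.strong_induction_on with
  | _ n IH =>
    intro A hA
    rcases A.eq_empty_or_nonempty with hAe | hAne
    · subst hAe
      intro α c _
      exact ⟨fun _ => 1, ∅, Finset.Subset.refl _, by simp, by simp [rho], by simp⟩
    · have hpA : A.min' hAne ∈ A := Finset.min'_mem A hAne
      have hpmin : ∀ i ∈ A, A.min' hAne ≤ i := fun i hi => Finset.min'_le A i hi
      have hbdry : ∀ (α : ι → ℝ) (c : H), (∀ i ∈ A, |α i| ≤ 1) → (∃ i ∈ A, |α i| = 1) →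
          Good x A α c := by
        intro α c hα hex
        refine good_boundary x A ?_ (A.min' hAne) hpA hpmin α c hα hex
        intro A' hA' α' c' hα'
        exact IH A'.card (hA ▸ hA') A' rfl α' c' hα'
      intro α c hα
      by_cases hex : ∃ i ∈ A, |α i| = 1
      · exact hbdry α c hα hex
      · have hlt : ∀ i ∈ A, |α i| < 1 := fun i hi =>
          lt_of_le_of_ne (hα i hi) (fun h => hex ⟨i, hi, h⟩)
        exact good_interior x A hbdry (A.min' hAne) hpA hpmin α c hlt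

/-- For every finite family of vectors there are signs and a subfamily `J` such that the squared
norm of the signed sum is at most the sum of squared backward residuals of `J`. -/
theorem exists_signs_le_rho [Fintype ι] (x : ι → H) :
    ∃ (ε : ι → ℝ) (J : Finset ι), (∀ i, ε i = 1 ∨ ε i = -1) ∧
      ‖∑ i, ε i • x i‖ ^ 2 ≤ rho x J := by
  obtain ⟨ε, J, -, hε, hb, -⟩ := good_all x _ Finset.univ rfl (fun _ => 0) 0 (by simp)
  refine ⟨ε, J, fun i => hε i (Finset.mem_univ i), ?_⟩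
  simpa using hb

end Vale.Agent.Lib.P262.helper8
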